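import Crest.Agent.R80.Defs

/-!
# Row 80: the Cauchy-Pompeiu formula and the kernel `k0`
-/

namespace Crest.Agent.R80

open MeasureTheory Set Metric Filter Topology Complex
open scoped ContDiff
open Crest.AnalysisR.VecCalc3 Crest.AnalysisR.PDE Crest.AnalysisR.PDE.Elasticity

/-- the unit vector of angle `θ` -/
noncomputable def CP_e (θ : ℝ) : ℂ := Real.cos θ + Real.sin θ * I

theorem CP_cont : Continuous CP_e := by unfold CP_e; fun_prop

theorem CP_norm (θ : ℝ) : ‖CP_e θ‖ = 1 := by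
  simp [CP_e]

theorem CP_deriv (θ : ℝ) : HasDerivAt CP_e (I * CP_e θ) θ := by
  have h := (Real.hasDerivAt_cos θ).ofReal_comp.add
    ((Real.hasDerivAt_sin θ).ofReal_comp.mul_const I)
  refine HasDerivAt.congr_deriv h ?_
  simp only [CP_e, ofReal_neg]
  linear_combination (-Real.sin θ : ℂ) * I_mul_I

theorem CP_id (L : ℂ →L[ℝ] ℂ) {r : ℝ} (hr : r ≠ 0) (θ : ℝ) :
    r • ((L 1 + I * L I) / (r * CP_e θ)) = L (CP_e θ) + I * L (I * CP_e θ) := by
  have hr0 : (r : ℂ) ≠ 0 := by exact_mod_cast hr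
  have he : CP_e θ ≠ 0 := fun h => by simpa [h] using CP_norm θ
  have e1 : CP_e θ = Real.cos θ • (1 : ℂ) + Real.sin θ • I := by simp [CP_e]
  have e2 : I * CP_e θ = (-Real.sin θ) • (1 : ℂ) + Real.cos θ • I := by
    simp only [CP_e, real_smul, ofReal_neg]
    linear_combination (Real.sin θ : ℂ) * I_mul_I
  have e3 : (Real.cos θ : ℂ) ^ 2 + (Real.sin θ : ℂ) ^ 2 = 1 := by
    exact_mod_cast Real.cos_sq_add_sin_sq θ
  have a1 : L (CP_e θ) = Real.cos θ * L 1 + Real.sin θ * L I := by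
    rw [e1, map_add, map_smul, map_smul, real_smul, real_smul]
  have a2 : L (I * CP_e θ) = -Real.sin θ * L 1 + Real.cos θ * L I := by
    rw [e2, map_add, map_smul, map_smul, real_smul, real_smul, ofReal_neg]
  rw [a1, a2, real_smul]
  field_simp
  unfold CP_e
  linear_combination (-(L 1) - I * L I) * e3 +
    ((Real.sin θ : ℂ) ^ 2 * L 1 - Real.sin θ * Real.cos θ * L I) * I_mul_I

theorem CP_int {F : ℝ × ℝ → ℂ} (hF : Continuous F) {R : ℝ} (h0 : ∀ p : ℝ × ℝ, R < p.1 → F p = 0) :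
    IntegrableOn F (Ioi (0 : ℝ) ×ˢ Ioo (-Real.pi) Real.pi) := by
  refine (hF.continuousOn.integrableOn_compact ((isCompact_Icc (a := 0) (b := R)).prod
    (isCompact_Icc (a := -Real.pi) (b := Real.pi)))).of_forall_sdiff_eq_zero
    (measurableSet_Ioi.prod measurableSet_Ioo) fun p hp => h0 p ?_
  by_contra hn
  exact hp.2 ⟨⟨le_of_lt hp.1.1, not_lt.1 hn⟩, hp.1.2.1.le, hp.1.2.2.le⟩

/-- Polar coordinates (`Complex.integral_comp_polarCoord_symm`): for `t = r e^{iϑ}`,
`(∂₁ + i ∂₂) Φ / t · r = ∂_r Φ + (i / r) ∂_ϑ Φ`; Fubini; the radial integral gives `-Φ 0`, the angular one `0`. -/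
theorem cauchy_pompeiu {Φ : ℂ → ℂ} (h : ContDiff ℝ 1 Φ) (hc : HasCompactSupport Φ) :
    ∫ t, (fderiv ℝ Φ t 1 + I * fderiv ℝ Φ t I) / t = -(2 * Real.pi) * Φ 0 := by
  obtain ⟨R, hR⟩ := hc.isCompact.isBounded.subset_closedBall (0 : ℂ)
  have hL : Continuous (fderiv ℝ Φ) := h.continuous_fderiv one_ne_zero
  have hd : Differentiable ℝ Φ := h.differentiable one_ne_zero
  have far : ∀ (r θ : ℝ), R < r → (r : ℂ) * CP_e θ ∉ tsupport Φ := fun r θ hr hm => by
    have := hR hm
    rw [mem_closedBall_zero_iff, norm_mul, CP_norm, mul_one, Complex.norm_real] at this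
    linarith [le_abs_self r, Real.norm_eq_abs r]
  have farL : ∀ (r θ : ℝ), R < r → fderiv ℝ Φ ((r : ℂ) * CP_e θ) = 0 := fun r θ hr => by
    by_contra hne
    exact far r θ hr (support_fderiv_subset ℝ hne)
  have cP : Continuous fun p : ℝ × ℝ => fderiv ℝ Φ ((p.1 : ℂ) * CP_e p.2) :=
    hL.comp ((continuous_ofReal.comp continuous_fst).mul (CP_cont.comp continuous_snd))
  have cA : Continuous fun p : ℝ × ℝ => fderiv ℝ Φ ((p.1 : ℂ) * CP_e p.2) (CP_e p.2) :=
    cP.clm_apply (CP_cont.comp continuous_snd)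
  have cB : Continuous fun p : ℝ × ℝ => I * fderiv ℝ Φ ((p.1 : ℂ) * CP_e p.2) (I * CP_e p.2) :=
    continuous_const.mul (cP.clm_apply (continuous_const.mul (CP_cont.comp continuous_snd)))
  have iA := CP_int cA (R := R) fun p hp => by simp [farL _ _ hp]
  have iB := CP_int cB (R := R) fun p hp => by simp [farL _ _ hp]
  rw [← Complex.integral_comp_polarCoord_symm, polarCoord_target,
    setIntegral_congr_fun (measurableSet_Ioi.prod measurableSet_Ioo)
      (g := fun p : ℝ × ℝ => fderiv ℝ Φ ((p.1 : ℂ) * CP_e p.2) (CP_e p.2) +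
        I * fderiv ℝ Φ ((p.1 : ℂ) * CP_e p.2) (I * CP_e p.2))
      (fun p hp => by
        rw [Complex.polarCoord_symm_apply]
        exact CP_id _ (ne_of_gt hp.1) _),
    integral_add iA iB]
  have eA : ∫ p in Ioi (0 : ℝ) ×ˢ Ioo (-Real.pi) Real.pi,
      fderiv ℝ Φ ((p.1 : ℂ) * CP_e p.2) (CP_e p.2) = -(2 * Real.pi) * Φ 0 := by
    rw [Measure.volume_eq_prod, ← Measure.prod_restrict, integral_prod_symm _
      (by rw [Measure.prod_restrict]; exact iA)]
    have e1 : ∀ θ : ℝ, ∫ r in Ioi (0 : ℝ), fderiv ℝ Φ ((r : ℂ) * CP_e θ) (CP_e θ) = -Φ 0 := by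
      intro θ
      have hder : ∀ r : ℝ, HasDerivAt (fun r : ℝ => Φ ((r : ℂ) * CP_e θ))
          (fderiv ℝ Φ ((r : ℂ) * CP_e θ) (CP_e θ)) r := fun r => by
        have h1 : HasDerivAt (fun r : ℝ => (r : ℂ) * CP_e θ) (CP_e θ) r := by
          simpa using (hasDerivAt_id r).ofReal_comp.mul_const (CP_e θ)
        exact (hd _).hasFDerivAt.comp_hasDerivAt r h1
      have hc1 : Continuous fun r : ℝ => fderiv ℝ Φ ((r : ℂ) * CP_e θ) (CP_e θ) :=
        cA.comp (continuous_id.prodMk continuous_const)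
      have hi : IntegrableOn (fun r : ℝ => fderiv ℝ Φ ((r : ℂ) * CP_e θ) (CP_e θ)) (Ioi 0) := by
        refine (hc1.continuousOn.integrableOn_compact
          (isCompact_Icc (a := 0) (b := R))).of_forall_sdiff_eq_zero measurableSet_Ioi fun r hr => ?_
        have : R < r := by
          by_contra hn
          exact hr.2 ⟨le_of_lt hr.1, not_lt.1 hn⟩
        simp [farL _ _ this]
      have ht : Tendsto (fun r : ℝ => Φ ((r : ℂ) * CP_e θ)) atTop (𝓝 0) := by
        refine tendsto_const_nhds.congr' ?_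
        filter_upwards [eventually_gt_atTop R] with r hr
        exact (image_eq_zero_of_notMem_tsupport (far r θ hr)).symm
      rw [integral_Ioi_of_hasDerivAt_of_tendsto' (fun r _ => hder r) hi ht]
      simp
    simp only [e1]
    rw [setIntegral_const, Real.volume_real_Ioo_of_le (by linarith [Real.pi_pos])]
    simp only [real_smul]
    push_cast
    ring
  have eB : ∫ p in Ioi (0 : ℝ) ×ˢ Ioo (-Real.pi) Real.pi,
      I * fderiv ℝ Φ ((p.1 : ℂ) * CP_e p.2) (I * CP_e p.2) = 0 := by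
    rw [Measure.volume_eq_prod, setIntegral_prod _ iB]
    refine setIntegral_eq_zero_of_forall_eq_zero fun r hr => ?_
    have hr0 : (r : ℂ) ≠ 0 := by exact_mod_cast (ne_of_gt hr)
    have hder : ∀ θ : ℝ, HasDerivAt (fun θ : ℝ => I / r * Φ ((r : ℂ) * CP_e θ))
        (I * fderiv ℝ Φ ((r : ℂ) * CP_e θ) (I * CP_e θ)) θ := fun θ => by
      have h1 : HasDerivAt (fun θ : ℝ => (r : ℂ) * CP_e θ) (r • (I * CP_e θ)) θ :=
        (CP_deriv θ).const_mul (r : ℂ)
      have h2 := ((hd _).hasFDerivAt.comp_hasDerivAt θ h1).const_mul (I / r)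
      refine HasDerivAt.congr_deriv h2 ?_
      rw [map_smul, real_smul]
      field_simp
    have hc1 : Continuous fun θ : ℝ => I * fderiv ℝ Φ ((r : ℂ) * CP_e θ) (I * CP_e θ) :=
      cB.comp (continuous_const.prodMk continuous_id)
    rw [← integral_Ioc_eq_integral_Ioo,
      ← intervalIntegral.integral_of_le (by linarith [Real.pi_pos]),
      intervalIntegral.integral_eq_sub_of_hasDerivAt (fun θ _ => hder θ)
        (hc1.intervalIntegrable _ _)]
    simp [CP_e]
  rw [eA, eB, add_zero]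

theorem CP_norm_k0 (K : ℝ) (t : ℂ) :
    ‖k0 K t‖ = Real.exp (-K * ‖t‖ ^ 2 / 2) / (2 * Real.pi * ‖t‖) := by
  simp only [k0, norm_div, norm_mul, Complex.norm_real, Real.norm_eq_abs, Real.abs_exp,
    Complex.norm_ofNat, abs_of_pos Real.pi_pos]

theorem integrable_pow_mul_k0 {K : ℝ} (hK : 0 < K) (j : ℕ) : Integrable fun t => t ^ j * k0 K t := by
  have hm : Measurable fun t : ℂ => t ^ j * k0 K t := by unfold k0; fun_prop
  rw [← integrable_norm_iff hm.aestronglyMeasurable]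
  have e : (fun t : ℂ => ‖t ^ j * k0 K t‖) = fun t : ℂ =>
      (fun y : ℝ => y ^ j * (Real.exp (-K * y ^ 2 / 2) / (2 * Real.pi * y))) ‖t‖ := by
    funext t
    rw [norm_mul, norm_pow, CP_norm_k0]
  rw [e]
  refine (integrable_fun_norm_addHaar (volume : Measure ℂ)
    (f := fun y : ℝ => y ^ j * (Real.exp (-K * y ^ 2 / 2) / (2 * Real.pi * y)))).2 ?_
  have h1 := (integrableOn_rpow_mul_exp_neg_mul_sq (b := K / 2) (by linarith) (s := j)
    (by have : (0 : ℝ) ≤ j := Nat.cast_nonneg j; linarith)).div_const (2 * Real.pi)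
  refine IntegrableOn.congr_fun h1 (fun y hy => ?_) measurableSet_Ioi
  have hy0 : y ≠ 0 := ne_of_gt hy
  simp only [Complex.finrank_real_complex, Nat.add_one_sub_one, pow_one, smul_eq_mul,
    Real.rpow_natCast]
  rw [show -(K / 2) * y ^ 2 = -K * y ^ 2 / 2 by ring]
  field_simp

theorem integrable_k0 {K : ℝ} (hK : 0 < K) : Integrable (k0 K) := by
  simpa using integrable_pow_mul_k0 hK 0

/-- dominated convergence as `K → ∞` (or scaling). -/
theorem exists_k0_small {η : ℝ} (hη : 0 < η) : ∃ K : ℝ, 0 < K ∧ ∫ t, ‖k0 K t‖ ≤ η := by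
  set C := ∫ t, ‖k0 1 t‖ with hC
  have hC0 : 0 ≤ C := integral_nonneg fun _ => norm_nonneg _
  set c := C / η + 1 with hc
  have hc0 : 0 < c := by positivity
  refine ⟨c ^ 2, by positivity, ?_⟩
  have e : ∀ t : ℂ, ‖k0 (c ^ 2) t‖ = c * ‖k0 1 (c • t)‖ := fun t => by
    rw [CP_norm_k0, CP_norm_k0, norm_smul, Real.norm_of_nonneg hc0.le,
      show -1 * (c * ‖t‖) ^ 2 / 2 = -c ^ 2 * ‖t‖ ^ 2 / 2 by ring]
    by_cases ht : ‖t‖ = 0
    · simp [ht]
    · field_simp
  simp only [e]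
  rw [integral_const_mul, Measure.integral_comp_smul volume (fun t : ℂ => ‖k0 1 t‖) c,
    Complex.finrank_real_complex, abs_of_pos (by positivity), smul_eq_mul, ← hC]
  have e2 : c * ((c ^ 2)⁻¹ * C) = C / c := by field_simp
  rw [e2, div_le_iff₀ hc0, hc]
  have : η * (C / η + 1) = C + η := by field_simp
  linarith

end Crest.Agent.R80
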