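import Mathlib
import Crest.Prelude.Def_Elasticity
import Crest.Prelude.Def_PlanarDomain

/-!
# Row 80 (S0107): global uniqueness for isotropic elasticity in `ℝ³` -- definitions and plan

Notation: `m = log μ`, `l = log (μ / (λ + 2 μ))`, `κ = (1 - e^l)/2 = (λ+μ)/(2(λ+2μ))`, `a = ∇ m`,
`H = a ⊗ a - ∇² m`, `ε = div u / (1 - 2κ)`, `D = θ · ∇` for a null vector `θ ∈ ℂ³`.

* `Calc`, `L2`, `Mol`, `Weak`, `Riesz`, `Reg`   classical calculus, `L²`, mollifiers, weak derivatives.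
* `Dom`, `Ind`, `Ext`       geometry of the domain, cut-offs at the boundary, extension of the moduli.
* `Car1`, `Car2a`, `Car2`   Carleman estimates for `D` and for `Δ` (systems).
* `Exist0`, `Exist`, `Wkb`  solvability of `Δ + A·∇ + B` with exponential weights, WKB solutions.
* `CP`, `Ker`, `KerD`, `Trans`   solvability of the transport system `D W = A W + F`.
* `Coef`, `Ike`, `Cgo`      Ikehata's substitution, complex geometric optics solutions of the Lamé system.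
* `Abs`, `Energy`, `DNr`, `DN`   from the equality of the energies to a glued weak solution.
* `Newton`, `BD1`, `BD1f`, `BD2`, `BD`   boundary determination.
* `PSys`, `Diff1`, `Diff`, `Lim`, `TSc`, `Match`   the `4 × 4` system for `(u, ε)`, bounds, weak limits:
  matched solutions of the two rank three transport systems.
* `Gauge1`, `Gauge`, `Hol1`, `Hol`, `Nice`, `Liou`, `Alg`, `Main`   the gauge `G(x,t)`, holomorphy in `t`,
  Liouville, algebra.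
-/

namespace Crest.Agent.R80

open MeasureTheory Set Metric Filter Topology Complex
open scoped ContDiff
open Crest.AnalysisR.VecCalc3 Crest.AnalysisR.PDE Crest.AnalysisR.PDE.Elasticity

abbrev C3 : Type := Fin 3 → ℂ

/-! ### classical calculus -/

/-- partial derivative of a complex function on `ℝ³`. -/
noncomputable def pd (i : Fin 3) (f : R3 → ℂ) (x : R3) : ℂ :=
  fderiv ℝ f x (EuclideanSpace.single i 1)

/-- derivative along a complex vector. -/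
noncomputable def dv (θ : C3) (f : R3 → ℂ) (x : R3) : ℂ := ∑ i, θ i * pd i f x

/-- Laplacian. -/
noncomputable def lap (f : R3 → ℂ) (x : R3) : ℂ := ∑ i, pd i (pd i f) x

/-- coordinate vector. -/
def ee (i : Fin 3) : C3 := Pi.single i 1

/-- `e ^ (θ · x)`. -/
noncomputable def ex (θ : C3) (x : R3) : ℂ := Complex.exp (∑ i, θ i * (x i : ℂ))

/-- the amplitude `e ^ (- τ θ · x) f`. -/
noncomputable def amp (τ : ℝ) (θ : C3) (f : R3 → ℂ) (x : R3) : ℂ := ex (-(τ : ℂ) • θ) x * f x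

/-- real part of a complex vector. -/
noncomputable def rp (θ : C3) : R3 := WithLp.toLp 2 fun i => (θ i).re

/-- imaginary part of a complex vector. -/
noncomputable def ip (θ : C3) : R3 := WithLp.toLp 2 fun i => (θ i).im

/-- squared Hermitian norm. -/
noncomputable def n2 (θ : C3) : ℝ := ∑ i, ‖θ i‖ ^ 2

/-- null vectors. -/
def Null (θ : C3) : Prop := ∑ i, θ i * θ i = 0

/-- `C^n` functions with compact support in `U`. -/
structure Tk (n : WithTop ℕ∞) (U : Set R3) (ψ : R3 → ℂ) : Prop where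
  cd : ContDiff ℝ n ψ
  cs : HasCompactSupport ψ
  sub : tsupport ψ ⊆ U

/-- smooth test functions. -/
abbrev Tst (U : Set R3) (ψ : R3 → ℂ) : Prop := Tk ∞ U ψ

/-! ### `L²` -/

abbrev L2 {E : Type*} [NormedAddCommGroup E] (U : Set R3) (f : R3 → E) : Prop :=
  MemLp f 2 (volume.restrict U)

/-- `L²(U)` norm. -/
noncomputable def nr {E : Type*} [NormedAddCommGroup E] (U : Set R3) (f : R3 → E) : ℝ :=
  lpNorm f 2 (volume.restrict U)

/-- the weight `e ^ (- β · x)`. -/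
noncomputable def ew (β x : R3) : ℝ := Real.exp (-inner ℝ β x)

/-- weighted `L²(U)` norm. -/
noncomputable def wn {E : Type*} [NormedAddCommGroup E] [NormedSpace ℝ E] (U : Set R3) (β : R3)
    (f : R3 → E) : ℝ :=
  nr U fun x => ew β x • f x

/-- `f` vanishes a.e. outside `K`. -/
def Van {E : Type*} [Zero E] (K : Set R3) (f : R3 → E) : Prop := ∀ᵐ x : R3, x ∉ K → f x = 0

/-- bounded measurable coefficient. -/
def Bd (f : R3 → ℂ) : Prop := AEStronglyMeasurable f volume ∧ ∃ C : ℝ, ∀ x, ‖f x‖ ≤ C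

/-- weak convergence in `L²(U)` along a filter. -/
def WLim {α : Type*} (l : Filter α) (U : Set R3) (f : α → R3 → ℂ) (g : R3 → ℂ) : Prop :=
  ∀ ψ : R3 → ℂ, L2 U ψ → Tendsto (fun n => ∫ x in U, f n x * ψ x) l (𝓝 (∫ x in U, g x * ψ x))

/-! ### weak derivatives -/

/-- `g = θ · ∇ f` weakly on `U`. -/
def WD (U : Set R3) (θ : C3) (f g : R3 → ℂ) : Prop :=
  ∀ ψ, Tst U ψ → ∫ x, f x * dv θ ψ x = -∫ x, g x * ψ x

/-- `f ∈ H¹(U)` with gradient `G`. -/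
structure H1 (U : Set R3) (f : R3 → ℂ) (G : Fin 3 → R3 → ℂ) : Prop where
  l2 : L2 U f
  l2G : ∀ i, L2 U (G i)
  wd : ∀ i, WD U (ee i) f (G i)

/-- `f ∈ H²(U)`, `G2 k l = ∂_l ∂_k f`. -/
structure H2 (U : Set R3) (f : R3 → ℂ) (G : Fin 3 → R3 → ℂ) (G2 : Fin 3 → Fin 3 → R3 → ℂ) : Prop where
  h1 : H1 U f G
  h2 : ∀ k, H1 U (G k) (G2 k)

/-- `Δ y = F` weakly on `U`. -/
def WL (U : Set R3) (y F : R3 → ℂ) : Prop :=
  ∀ ψ, Tst U ψ → ∫ x, y x * lap ψ x = ∫ x, F x * ψ x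

/-- `Δ y = f₀ + ∑ ∂ᵢ fᵢ` weakly on `U`. -/
def WLd (U : Set R3) (y f₀ : R3 → ℂ) (f : Fin 3 → R3 → ℂ) : Prop :=
  ∀ ψ, Tst U ψ → ∫ x, y x * lap ψ x = (∫ x, f₀ x * ψ x) - ∑ i, ∫ x, f i x * pd i ψ x

/-- the first order system `D X = A X` weakly on `U`. -/
def Sys {ι : Type} [Fintype ι] (U : Set R3) (θ : C3) (A : ι → ι → R3 → ℂ) (X : ι → R3 → ℂ) : Prop :=
  ∀ i, WD U θ (X i) fun x => ∑ j, A i j x * X j x

/-- the system `Δ y + A · ∇ y + B y = F` a.e. on `U`. -/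
def Eqn {ι : Type} [Fintype ι] (U : Set R3) (A : Fin 3 → ι → ι → R3 → ℂ) (B : ι → ι → R3 → ℂ)
    (y : ι → R3 → ℂ) (G : ι → Fin 3 → R3 → ℂ) (G2 : ι → Fin 3 → Fin 3 → R3 → ℂ)
    (F : ι → R3 → ℂ) : Prop :=
  ∀ i, ∀ᵐ x : R3, x ∈ U →
    ∑ k, G2 i k k x + ∑ k, ∑ j, A k i j x * G j k x + ∑ j, B i j x * y j x = F i x

/-- the formal transpose of `Δ + A · ∇ + B`. -/
noncomputable def Pt {ι : Type} [Fintype ι] (A : Fin 3 → ι → ι → R3 → ℂ) (B : ι → ι → R3 → ℂ)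
    (v : ι → R3 → ℂ) (j : ι) (x : R3) : ℂ :=
  lap (v j) x - ∑ k, ∑ i, pd k (fun y => A k i j y * v i y) x + ∑ i, B i j x * v i x

/-- the operator `Δ + A · ∇ + B` on smooth functions. -/
noncomputable def Pc {ι : Type} [Fintype ι] (A : Fin 3 → ι → ι → R3 → ℂ) (B : ι → ι → R3 → ℂ)
    (W : ι → R3 → ℂ) (i : ι) (x : R3) : ℂ :=
  lap (W i) x + ∑ k, ∑ j, A k i j x * pd k (W j) x + ∑ j, B i j x * W j x

/-- the transport operator `2 D + θ · A`. -/
noncomputable def Tr {ι : Type} [Fintype ι] (θ : C3) (A : Fin 3 → ι → ι → R3 → ℂ)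
    (W : ι → R3 → ℂ) (i : ι) (x : R3) : ℂ :=
  2 * dv θ (W i) x + ∑ k, ∑ j, θ k * A k i j x * W j x

/-- the bump function of radius `1 / (k + 1)`. -/
noncomputable def bump (k : ℕ) : ContDiffBump (0 : R3) :=
  ⟨1 / (2 * ((k : ℝ) + 1)), 1 / ((k : ℝ) + 1), by positivity,
    one_div_lt_one_div_of_lt (by positivity) (by linarith [(Nat.cast_nonneg k : (0 : ℝ) ≤ k)])⟩

/-- mollification. -/
noncomputable def mol (k : ℕ) (f : R3 → ℂ) (x : R3) : ℂ :=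
  ∫ y, (bump k).normed volume y • f (x - y)

/-! ### the domain and the moduli -/

/-- bounded domain with smooth boundary. -/
def IsDom (Ω : Set R3) : Prop := Bornology.IsBounded Ω ∧ HasSmoothBoundary Ω

/-- `ρ` is a defining function of the bounded domain `Ω`. -/
structure DefF (Ω : Set R3) (ρ : R3 → ℝ) : Prop where
  bd : Bornology.IsBounded Ω
  cd : ContDiff ℝ ∞ ρ
  eq : Ω = {x | ρ x < 0}
  ne : ∀ x, ρ x = 0 → fderiv ℝ ρ x ≠ 0

open Classical in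
/-- `f₂` on `Ω`, `f₁` outside. -/
noncomputable def hat {E : Type*} (Ω : Set R3) (f₂ f₁ : R3 → E) (x : R3) : E :=
  if x ∈ Ω then f₂ x else f₁ x

/-- a pair of moduli on the whole space: `m = log μ`, `l = log (μ / (λ + 2 μ))`. -/
structure Co where
  m : R3 → ℝ
  l : R3 → ℝ
  hm : ContDiff ℝ 6 m
  hl : ContDiff ℝ 6 l
  cm : HasCompactSupport m
  cl : HasCompactSupport l

namespace Co

variable (c : Co)

noncomputable def mu (x : R3) : ℝ := Real.exp (c.m x)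
noncomputable def lam (x : R3) : ℝ := Real.exp (c.m x) * (Real.exp (-c.l x) - 2)
noncomputable def mc (x : R3) : ℂ := (c.m x : ℂ)
noncomputable def ka (x : R3) : ℂ := (1 - Complex.exp (c.l x : ℂ)) / 2
noncomputable def a (i : Fin 3) : R3 → ℂ := pd i c.mc
noncomputable def H (i j : Fin 3) (x : R3) : ℂ := c.a i x * c.a j x - pd i (c.a j) x
noncomputable def trH (x : R3) : ℂ := ∑ i, c.H i i x

/-- first order coefficients of Ikehata's system (`some j` ↔ `g j`, `none` ↔ `f`). -/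
noncomputable def IA (k : Fin 3) : Option (Fin 3) → Option (Fin 3) → R3 → ℂ
  | some j, some l => fun x => -((if j = l then c.a k x else 0) + if k = l then c.a j x else 0)
  | some j, none => fun x => -2 * c.H k j x
  | none, some l => fun x => if k = l then 2 * c.ka x else 0
  | none, none => fun _ => 0

/-- zero order coefficients of Ikehata's system. -/
noncomputable def IB : Option (Fin 3) → Option (Fin 3) → R3 → ℂ
  | some j, some l => fun x => -((if j = l then ∑ i, pd i (c.a i) x else 0) + pd l (c.a j) x)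
  | some j, none => fun x => -2 * ∑ i, pd i (c.H i j) x
  | none, some l => fun x => -(4 * c.ka x - 1) * c.a l x
  | none, none => fun x => -(4 * c.ka x - 1) * c.trH x

/-- Ikehata's substitution `u = e^{-m} (g + ∇ f + f a)`. -/
noncomputable def iu (y : Option (Fin 3) → R3 → ℂ) (G : Option (Fin 3) → Fin 3 → R3 → ℂ) (j : Fin 3)
    (x : R3) : ℂ :=
  Complex.exp (-c.mc x) * (y (some j) x + G none j x + y none x * c.a j x)

/-- its gradient `∂ᵢ uⱼ`. -/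
noncomputable def iDu (y : Option (Fin 3) → R3 → ℂ) (G : Option (Fin 3) → Fin 3 → R3 → ℂ)
    (G2 : Option (Fin 3) → Fin 3 → Fin 3 → R3 → ℂ) (i j : Fin 3) (x : R3) : ℂ :=
  -c.a i x * c.iu y G j x + Complex.exp (-c.mc x) *
    (G (some j) i x + G2 none j i x + G none i x * c.a j x + y none x * pd i (c.a j) x)

/-- its `ε = div u / (1 - 2κ)`. -/
noncomputable def ie (y : Option (Fin 3) → R3 → ℂ) (G : Option (Fin 3) → Fin 3 → R3 → ℂ)
    (x : R3) : ℂ :=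
  Complex.exp (-c.mc x) *
    (∑ i, G (some i) i x - 2 * ∑ i, c.a i x * y (some i) x - 2 * y none x * c.trH x)

/-- limit amplitude of `u` for the WKB solution `e^{τ θ x} (W₀ + W₁ / τ)`. -/
noncomputable def cX (θ : C3) (W₀ W₁ : Option (Fin 3) → R3 → ℂ) (j : Fin 3) (x : R3) : ℂ :=
  Complex.exp (-c.mc x) * (W₀ (some j) x + θ j * W₁ none x)

/-- limit amplitude of `ε`. -/
noncomputable def cE (θ : C3) (W₀ W₁ : Option (Fin 3) → R3 → ℂ) (x : R3) : ℂ :=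
  Complex.exp (-c.mc x) * (∑ i, (pd i (W₀ (some i)) x + θ i * W₁ (some i) x) -
    2 * ∑ i, c.a i x * W₀ (some i) x)

end Co

/-- `ε = div u / (1 - 2κ)`. -/
noncomputable def epsOf (κ : R3 → ℂ) (Du : Fin 3 → Fin 3 → R3 → ℂ) (x : R3) : ℂ :=
  (∑ i, Du i i x) / (1 - 2 * κ x)

/-- the elastic bilinear form on gradient matrices `P i j = ∂ᵢ uⱼ`. -/
def bil {𝕜 : Type*} [CommRing 𝕜] (lam mu : 𝕜) (P Q : Fin 3 → Fin 3 → 𝕜) : 𝕜 :=
  lam * ((∑ i, P i i) * ∑ i, Q i i) + mu * ∑ i, ∑ j, (P i j + P j i) * Q i j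

/-- the integrand of the weak Lamé system. -/
noncomputable def Co.bilc (c : Co) (P : Fin 3 → Fin 3 → R3 → ℂ) (ψ : Fin 3 → R3 → ℂ) (x : R3) : ℂ :=
  bil (c.lam x : ℂ) (c.mu x : ℂ) (fun i j => P i j x) fun i j => pd i (ψ j) x

/-- weak Lamé system on `U` for a field with gradient `P`. -/
def WLame (U : Set R3) (c : Co) (P : Fin 3 → Fin 3 → R3 → ℂ) : Prop :=
  ∀ ψ : Fin 3 → R3 → ℂ, (∀ j, Tk 1 U (ψ j)) → ∫ x, c.bilc P ψ x = 0

/-- glued weak Lamé system: moduli `c₂` in `Ω`, `c₁` outside. -/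
def GLame (U Ω : Set R3) (c₂ c₁ : Co) (P : Fin 3 → Fin 3 → R3 → ℂ) : Prop :=
  ∀ ψ₂ ψ₁ : Fin 3 → R3 → ℂ, (∀ j, Tk 1 U (ψ₂ j)) → (∀ j, Tk 1 U (ψ₁ j)) →
    (∀ j, ∀ x ∈ frontier Ω, ψ₂ j x = ψ₁ j x) →
      (∫ x in Ω, c₂.bilc P ψ₂ x) + ∫ x in Ωᶜ, c₁.bilc P ψ₁ x = 0

/-- gradient of a real field. -/
noncomputable def Dr (φ : R3 → R3) (i j : Fin 3) (x : R3) : ℝ := pderiv (fun y => φ y j) i x

/-- the real energy form on gradient fields. -/
noncomputable def BR (Ω : Set R3) (c : Co) (P Q : Fin 3 → Fin 3 → R3 → ℝ) : ℝ :=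
  ∫ x in Ω, bil (c.lam x) (c.mu x) (fun i j => P i j x) fun i j => Q i j x

/-- squared `L²(Ω)` norm of a gradient field. -/
noncomputable def g2 (Ω : Set R3) (P : Fin 3 → Fin 3 → R3 → ℝ) : ℝ :=
  ∫ x in Ω, ∑ i, ∑ j, P i j x ^ 2

/-- `C¹` fields vanishing on the boundary. -/
def V0 (Ω : Set R3) (ψ : R3 → R3) : Prop := ContDiff ℝ 1 ψ ∧ ∀ x ∈ frontier Ω, ψ x = 0

/-- the data of the problem, after extension of the moduli. -/
structure Setup where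
  Ω : Set R3
  dom : IsDom Ω
  c₁ : Co
  c₂ : Co
  pos₁ : ∀ x ∈ closure Ω, 0 < 3 * c₁.lam x + 2 * c₁.mu x
  pos₂ : ∀ x ∈ closure Ω, 0 < 3 * c₂.lam x + 2 * c₂.mu x
  data : SameBoundaryData Ω c₁.lam c₁.mu c₂.lam c₂.mu

/-- exchange of the two pairs. -/
def Setup.swap (S : Setup) : Setup where
  Ω := S.Ω
  dom := S.dom
  c₁ := S.c₂
  c₂ := S.c₁
  pos₁ := S.pos₂
  pos₂ := S.pos₁
  data φ hφ := ⟨(S.data φ hφ).2, (S.data φ hφ).1⟩

/-- glued coefficients. -/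
noncomputable def Setup.kh (S : Setup) : R3 → ℂ := hat S.Ω S.c₂.ka S.c₁.ka
noncomputable def Setup.ah (S : Setup) (i : Fin 3) : R3 → ℂ := hat S.Ω (S.c₂.a i) (S.c₁.a i)
noncomputable def Setup.Hh (S : Setup) (i j : Fin 3) : R3 → ℂ := hat S.Ω (S.c₂.H i j) (S.c₁.H i j)

/-- boundary determination. -/
structure BDy (Ω : Set R3) (c₁ c₂ : Co) : Prop where
  m : ∀ x ∈ frontier Ω, c₁.m x = c₂.m x
  a : ∀ i, ∀ x ∈ frontier Ω, c₁.a i x = c₂.a i x
  l : ∀ x ∈ frontier Ω, c₁.l x = c₂.l x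

/-! ### the `4 × 4` system and the transport systems -/

noncomputable def q1 (κ : R3 → ℂ) (a : Fin 3 → R3 → ℂ) (Du : Fin 3 → Fin 3 → R3 → ℂ) (ε : R3 → ℂ)
    (j : Fin 3) (x : R3) : ℂ :=
  ∑ i, (Du i j x + Du j i x) * a i x + (4 * κ x - 1) * ε x * a j x

noncomputable def q2 (κ : R3 → ℂ) (H : Fin 3 → Fin 3 → R3 → ℂ) (Du : Fin 3 → Fin 3 → R3 → ℂ)
    (ε : R3 → ℂ) (x : R3) : ℂ :=
  ∑ i, ∑ j, (Du i j x + Du j i x) * H i j x + (4 * κ x - 1) * ε x * ∑ i, H i i x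

/-- `Δ u + ∇ (2κε) + q1 = 0`, `Δ ε = q2`, `div u = (1 - 2κ) ε` weakly on `U`. -/
structure PS (U : Set R3) (κ : R3 → ℂ) (a : Fin 3 → R3 → ℂ) (H : Fin 3 → Fin 3 → R3 → ℂ)
    (u : Fin 3 → R3 → ℂ) (Du : Fin 3 → Fin 3 → R3 → ℂ) (ε : R3 → ℂ) : Prop where
  h1 : ∀ j, H1 U (u j) fun i => Du i j
  l2 : L2 U ε
  e1 : ∀ j ψ, Tst U ψ → ∫ x, u j x * lap ψ x =
    (∫ x, 2 * κ x * ε x * pd j ψ x) - ∫ x, q1 κ a Du ε j x * ψ x
  e2 : WL U ε (q2 κ H Du ε)
  e3 : ∀ᵐ x : R3, x ∈ U → ∑ i, Du i i x = (1 - 2 * κ x) * ε x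

/-- the transport system for the amplitudes `(X, E)` of `(u, ε)`. -/
structure TS0 (U : Set R3) (θ : C3) (κ : R3 → ℂ) (a : Fin 3 → R3 → ℂ) (H : Fin 3 → Fin 3 → R3 → ℂ)
    (X : Fin 3 → R3 → ℂ) (E : R3 → ℂ) : Prop where
  l2 : ∀ j, L2 U (X j)
  l2' : L2 U E
  e1 : ∀ j, WD U θ (X j) fun x =>
    -(1 / 2) * ((∑ i, θ i * a i x) * X j x + θ j * (2 * κ x * E x + ∑ i, a i x * X i x))
  e2 : WD U θ E fun x => 1 / 2 * ∑ i, ∑ j, (θ i * X j x + θ j * X i x) * H i j x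
  e3 : ∀ᵐ x : R3, x ∈ U → ∑ i, θ i * X i x = 0

/-- the conic of null directions. -/
noncomputable def th (t : ℂ) : C3 := ![1 - t ^ 2, I * (1 + t ^ 2), 2 * t]

/-- coordinates `(η₀, η₁, γ)`: `X = η₀ (1, i, t) + η₁ (-t, i t, 1)`, `γ = E + a · X`. -/
noncomputable def toX (t : ℂ) (a : Fin 3 → R3 → ℂ) (X : Fin 3 → R3 → ℂ) (E : R3 → ℂ) :
    Fin 3 → R3 → ℂ :=
  ![fun x => (X 0 x - I * X 1 x) / 2, fun x => X 2 x - t * ((X 0 x - I * X 1 x) / 2),
    fun x => E x + ∑ i, a i x * X i x]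

noncomputable def aα (a : C3) (t : ℂ) : ℂ := a 0 + I * a 1 + t * a 2
noncomputable def aβ (a : C3) (t : ℂ) : ℂ := -t * a 0 + I * t * a 1 + a 2
/-- `aσ a t = th t · a`. -/
noncomputable def aσ (a : C3) (t : ℂ) : ℂ := aα a t + t * aβ a t

/-- the matrix of the rank three transport system in the coordinates `toX`. -/
noncomputable def Am (κ : ℂ) (a : C3) (t : ℂ) : Matrix (Fin 3) (Fin 3) ℂ :=
  !![-aσ a t / 2 - (1 / 2 - κ) * aα a t, -(1 / 2 - κ) * aβ a t, -κ;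
     -t * (1 / 2 - κ) * aα a t, -aσ a t / 2 - t * (1 / 2 - κ) * aβ a t, -t * κ;
     κ * aσ a t * aα a t, κ * aσ a t * aβ a t, -κ * aσ a t]

noncomputable def AF (κ : R3 → ℂ) (a : Fin 3 → R3 → ℂ) (t : ℂ) (i j : Fin 3) (x : R3) : ℂ :=
  Am (κ x) (fun k => a k x) t i j

/-- `X` (of class `C¹`) solves the first system on `U`, `X'` the second one, and they agree outside `K`. -/
structure Mat (U K : Set R3) (θ : C3) (A A' : Fin 3 → Fin 3 → R3 → ℂ) (X X' : Fin 3 → R3 → ℂ) :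
    Prop where
  cd : ∀ i, ContDiff ℝ 1 (X i)
  sys : Sys U θ A X
  l2 : ∀ i, L2 U (X' i)
  sys' : Sys U θ A' X'
  eq : ∀ i, ∀ᵐ x : R3, x ∈ U → x ∉ K → X' i x = X i x

/-- right hand side of the gauge equation for `H = G - 1`. -/
noncomputable def gr (A A' H : Fin 3 → Fin 3 → R3 → ℂ) (i j : Fin 3) (x : R3) : ℂ :=
  ∑ k, (A' i k x * H k j x - H i k x * A k j x) + (A' i j x - A i j x)

/-- `G = 1 + H` solves `D G = A' G - G A` and equals `1` outside `K`. -/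
structure GE (θ : C3) (A A' : Fin 3 → Fin 3 → R3 → ℂ) (K : Set R3) (H : Fin 3 → Fin 3 → R3 → ℂ) :
    Prop where
  l2 : ∀ i j, L2 univ (H i j)
  van : ∀ i j, Van K (H i j)
  eq : ∀ i j, WD univ θ (H i j) (gr A A' H i j)

/-- homogeneity weights of the coordinates `toX`. -/
noncomputable def dd (t : ℂ) : Fin 3 → ℝ := ![1, 1, √(1 + ‖t‖ ^ 2)]

/-- bounded Lipschitz functions. -/
def BL (L : ℝ) (f : R3 → ℂ) : Prop := (∀ x, ‖f x‖ ≤ L) ∧ ∀ x y, ‖f x - f y‖ ≤ L * ‖x - y‖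

/-- coefficient families: locally uniformly bounded Lipschitz in `x`, and complex differentiable in `t`
uniformly in `x`. -/
def Nice (f : ℂ → R3 → ℂ) : Prop :=
  ∀ t₀ : ℂ, ∃ (L : ℝ) (f' : R3 → ℂ), Continuous f' ∧ ∀ t, ‖t - t₀‖ ≤ 1 →
    BL L (f t) ∧ ∀ x, ‖f t x - f t₀ x - (t - t₀) * f' x‖ ≤ L * ‖t - t₀‖ ^ 2

/-! ### the Bargmann kernel -/

/-- the coordinate `z = θ · x / |Re θ|²`. -/
noncomputable def zc (θ : C3) (x : R3) : ℂ := (∑ i, θ i * (x i : ℂ)) / ((‖rp θ‖ ^ 2 : ℝ) : ℂ)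

/-- the point `t.re Re θ + t.im Im θ` of the plane of `θ`. -/
noncomputable def pl (θ : C3) (t : ℂ) : R3 := t.re • rp θ + t.im • ip θ

/-- twisted convolution along the plane of `θ` with the kernel `k`. -/
noncomputable def Sk (θ : C3) (x₀ : R3) (K : ℝ) (k : ℂ → ℂ) (f : R3 → ℂ) (x : R3) : ℂ :=
  ∫ t : ℂ, k t * Complex.exp (I * K * ((starRingEnd ℂ (zc θ (x - x₀)) * t).im : ℂ)) * f (x - pl θ t)

/-- the kernel produced by differentiating the phase of `Sk` in the direction `i`. -/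
noncomputable def k1 (θ : C3) (K : ℝ) (i : Fin 3) (k : ℂ → ℂ) (t : ℂ) : ℂ :=
  k t * (I * K * ((starRingEnd ℂ (zc θ (EuclideanSpace.single i 1)) * t).im : ℂ))

/-- the kernel `e^{-K|t|²/2} / (2 π t)`. -/
noncomputable def k0 (K : ℝ) (t : ℂ) : ℂ :=
  (Real.exp (-K * ‖t‖ ^ 2 / 2) : ℂ) / (2 * Real.pi * t)

/-- the weight `e^{K|z|²/2}`. -/
noncomputable def gw (θ : C3) (x₀ : R3) (K : ℝ) (x : R3) : ℂ :=
  (Real.exp (K * ‖zc θ (x - x₀)‖ ^ 2 / 2) : ℂ)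

/-- `C²` functions with bounds on the derivatives. -/
structure Bd2 (f : R3 → ℂ) (M₀ M₁ M₂ : ℝ) : Prop where
  cd : ContDiff ℝ 2 f
  b0 : ∀ x, ‖f x‖ ≤ M₀
  b1 : ∀ i x, ‖pd i f x‖ ≤ M₁
  b2 : ∀ i j x, ‖pd i (pd j f) x‖ ≤ M₂

/-- Newton potential with pole `y`. -/
noncomputable def Nw (y x : R3) : ℝ := ‖x - y‖⁻¹

end Crest.Agent.R80
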